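import Vale.Agent.P353.AN.MB.Stmt
import Vale.Agent.P353.AN.GL.Glob
import Vale.Agent.P353.AN.X.VFr

/-! # P353, all `N`, block MB: covariance (MB5a) and one piece in a rotated frame (MB5) -/

open MeasureTheory Filter Topology Matrix
open scoped ContDiff

namespace Vale.Agent.P353.Z.AM

variable {d dh dm r ds : ℕ} {F : Type} [NormedAddCommGroup F] [InnerProductSpace ℂ F]

omit [NormedAddCommGroup F] [InnerProductSpace ℂ F] in
private theorem mb514_rotu (Q : Matrix (Fin 9) (Fin 9) ℝ) (u : Cfg d → F) :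
    AJ.rotu Q 1 u = fun x => u (rox Q.transpose 1 x) := by
  funext x
  unfold AJ.rotu
  rw [Matrix.transpose_one]

/-- the rotation as a measurable embedding -/
private theorem mb514_emb {Q : Matrix (Fin 9) (Fin 9) ℝ} (hQ : Q * Q.transpose = 1) (n : ℕ) :
    MeasurableEmbedding (rox Q 1 : Cfg n → Cfg n) :=
  (AN.rtE Q hQ 1 (AN.gb969_one n)).toHomeomorph.measurableEmbedding

private theorem mb514_Zb {Q : Matrix (Fin 9) (Fin 9) ℝ} (hQ : Q * Q.transpose = 1) (φ : Spl dh dm d) (ψ : Spl r ds dh)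
    (κ : ℝ) (Om : Cfg r → Matrix (Fin dm) (Fin dm) ℝ) (a : Cfg r → Cfg ds → F) (R : ℝ) (x : Cfg d) :
    AN.Zb φ ψ (fun q => ((AL.chi R q : ℝ) : ℂ) • AN.bG κ (fun η => Om (rox Q.transpose 1 η))
      (fun η s => a (rox Q.transpose 1 η) (rox Q.transpose 1 s)) q) R (rox Q 1 x) =
    AN.Zb φ ψ (fun q => ((AL.chi R q : ℝ) : ℂ) • AN.bG κ Om a q) R x := by
  unfold AN.Zb
  simp only [AN.gb969_zy, AN.gb969_pm, AN.gb969_hz, AN.gb969_hs, ← AN.gb969_smul]
  unfold AN.bG AL.chi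
  simp only [AN.gb969_qX hQ, AN.gb969_inv hQ, AN.rt_norm hQ (AN.gb969_one _)]

private theorem mb514_ZZ {Q : Matrix (Fin 9) (Fin 9) ℝ} (hQ : Q * Q.transpose = 1) (φ : Spl dh dm d) (ψ : Spl r ds dh)
    (κ : ℝ) (Om : Cfg r → Matrix (Fin dm) (Fin dm) ℝ) (a : Cfg r → Cfg ds → F) (R : ℝ) (u : Cfg d → F) :
    AL.ZZ κ φ ψ Om a R u = AL.ZZ κ φ ψ (fun η => Om (rox Q.transpose 1 η))
      (fun η s => a (rox Q.transpose 1 η) (rox Q.transpose 1 s)) R (AJ.rotu Q 1 u) := by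
  unfold AL.ZZ
  symm
  rw [mb514_rotu, ← (AN.rt_mp hQ (AN.gb969_one d)).integral_comp (mb514_emb hQ d)]
  refine integral_congr_ae (Eventually.of_forall fun x => ?_)
  simp only [mb514_Zb hQ, AN.gb969_inv hQ]

omit [InnerProductSpace ℂ F] in
private theorem mb514_Sec2 {Q : Matrix (Fin 9) (Fin 9) ℝ} (hQ : Q * Q.transpose = 1) (A : Set (Cfg r))
    (a : Cfg r → Cfg ds → F) (ha : AL.Sec2 A a) :
    AL.Sec2 (rox Q 1 '' A) (fun η s => a (rox Q.transpose 1 η) (rox Q.transpose 1 s)) := by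
  have hT := AN.gb969_hR' hQ
  refine ⟨?_, ?_⟩
  · have h1 := (AN.rt_mp hT (AN.gb969_one r)).prod (AN.rt_mp hT (AN.gb969_one ds))
    exact ha.1.comp_measurePreserving h1
  · intro η s h
    exact ⟨rox Q.transpose 1 η, ha.2 _ _ h, AN.gb969_inv' hQ η⟩

omit [InnerProductSpace ℂ F] in
private theorem mb514_n2 {Q : Matrix (Fin 9) (Fin 9) ℝ} (hQ : Q * Q.transpose = 1) (a : Cfg r → Cfg ds → F) :
    AL.n2 (fun η s => a (rox Q.transpose 1 η) (rox Q.transpose 1 s)) = AL.n2 a := by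
  have hT := AN.gb969_hR' hQ
  have h1 := (AN.rt_mp hT (AN.gb969_one r)).prod (AN.rt_mp hT (AN.gb969_one ds))
  have h2 : MeasurableEmbedding (Prod.map (rox Q.transpose 1 : Cfg r → Cfg r) (rox Q.transpose 1 : Cfg ds → Cfg ds)) :=
    (mb514_emb hT r).prodMap (mb514_emb hT ds)
  exact h1.integral_comp h2 (fun q : Cfg r × Cfg ds => ‖a q.1 q.2‖ ^ 2)

private theorem mb514_SqM {Q : Matrix (Fin 9) (Fin 9) ℝ} (hQ : Q * Q.transpose = 1) (S : Setup d F)
    (h1 : (1 : Matrix (Fin d) (Fin d) ℝ) * (1 : Matrix (Fin d) (Fin d) ℝ).transpose = 1)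
    (R : ℕ → ℝ) (u : ℕ → Cfg d → F) (hu : AL.SqM S R u) : AL.SqM (S.rot Q hQ 1 h1) R (fun n => AJ.rotu Q 1 (u n)) where
  inv := by
    intro n
    rw [mb514_rotu]
    exact AN.gb969_GInv S hQ h1 (hu.inv n)
  pos := hu.pos
  lim := hu.lim
  bd := by
    intro s t hs hst
    obtain ⟨C, hC⟩ := hu.bd s t hs hst
    refine ⟨C, fun n => ?_⟩
    rw [mb514_rotu, AN.gb969_mas hQ]
    exact hC n

/-- **MB5a** -/
theorem covZ : CovZStmt F := by
  intro Q hQ
  exact ⟨fun d dh dm r ds φ ψ κ Om a R u => mb514_ZZ hQ φ ψ κ Om a R u,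
    fun r ds A a ha => ⟨mb514_Sec2 hQ A a ha, mb514_n2 hQ a⟩,
    fun d S h1 R u hu => mb514_SqM hQ S h1 R u hu⟩

/-- a sum of squares of antisymmetric matrices is invertible if one of them is -/
private theorem mb514_det (D : Fin 9 → Matrix (Fin dm) (Fin dm) ℝ) (ha : ∀ i, (D i)ᵀ = -D i) (h8 : (D 8).det ≠ 0) :
    (∑ i, D i * D i).det ≠ 0 := by
  intro h0
  obtain ⟨v, hv, hv0⟩ := Matrix.exists_mulVec_eq_zero_iff.2 h0
  have h1 : v ⬝ᵥ ((∑ i, D i * D i) *ᵥ v) = -∑ i, (D i *ᵥ v) ⬝ᵥ (D i *ᵥ v) := by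
    rw [Matrix.sum_mulVec, dotProduct_sum, ← Finset.sum_neg_distrib]
    refine Finset.sum_congr rfl fun i _ => ?_
    rw [← Matrix.mulVec_mulVec, Matrix.dotProduct_mulVec, ← Matrix.mulVec_transpose, ha i, Matrix.neg_mulVec,
      neg_dotProduct]
  rw [hv0, dotProduct_zero] at h1
  have h2 : ∀ i, 0 ≤ (D i *ᵥ v) ⬝ᵥ (D i *ᵥ v) := fun i =>
    Finset.sum_nonneg fun j _ => mul_self_nonneg _
  have h3 : ∑ i, (D i *ᵥ v) ⬝ᵥ (D i *ᵥ v) = 0 := by linarith
  have h4 := (Finset.sum_eq_zero_iff_of_nonneg fun i _ => h2 i).1 h3 8 (Finset.mem_univ _)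
  have h5 : D 8 *ᵥ v = 0 := dotProduct_self_eq_zero.1 h4
  exact h8 (Matrix.exists_mulVec_eq_zero_iff.1 ⟨v, hv, h5⟩)

/-- the sum of squares does not change under rotations -/
private theorem mb514_sq {Q : Matrix (Fin 9) (Fin 9) ℝ} (hQ : Q * Q.transpose = 1) (D : Fin 9 → Matrix (Fin dm) (Fin dm) ℝ) :
    ∑ i, (∑ j, Q i j • D j) * (∑ j, Q i j • D j) = ∑ i, D i * D i := by
  have hT : Q.transpose * Q = 1 := mul_eq_one_comm.1 hQ
  have h0 : ∀ j k, ∑ i, Q i j * Q i k = if j = k then 1 else 0 := by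
    intro j k
    have h := congrFun (congrFun hT j) k
    rw [Matrix.mul_apply, Matrix.one_apply] at h
    simpa [Matrix.transpose_apply] using h
  have h1 : ∀ i, (∑ j, Q i j • D j) * (∑ j, Q i j • D j) = ∑ j, ∑ k, (Q i j * Q i k) • (D j * D k) := by
    intro i
    rw [Finset.sum_mul_sum]
    refine Finset.sum_congr rfl fun j _ => Finset.sum_congr rfl fun k _ => ?_
    rw [smul_mul_smul_comm]
  simp only [h1]
  rw [Finset.sum_comm]
  refine Finset.sum_congr rfl fun j _ => ?_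
  rw [Finset.sum_comm]
  simp only [← Finset.sum_smul, h0]
  simp

/-- **MB5** -/
theorem piece_of (S : Setup d F) : PieceOfStmt S := by
  intro hCov hP hF dh dm r ds φ ψ z₀ hStd L Om K U hB η₀ hη₀ Q hQ h8
  have h1 : (1 : Matrix (Fin d) (Fin d) ℝ) * (1 : Matrix (Fin d) (Fin d) ℝ).transpose = 1 := AN.gb969_one d
  have hφ : S.IsSub φ := hStd.std.sub
  have hφ' : (S.rot Q hQ 1 h1).IsSub φ := by
    intro A B C
    rw [AX.rot_f]
    exact hφ A B C
  have hc' : AN.IsZ (S.rot Q hQ 1 h1) φ ψ := by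
    intro a B C
    rw [AX.rot_f]
    exact hStd.cen a B C
  have hη' : rox Q 1 η₀ ≠ 0 := by
    intro h0
    apply hη₀
    rw [← norm_eq_zero, ← AN.rt_norm hQ (AN.gb969_one r), h0, norm_zero]
  have h8' : ((S.rot Q hQ 1 h1).Dz φ ψ (rox Q 1 η₀) 8).det ≠ 0 := by
    rw [AX.rot_Dz]
    exact h8
  set M := AX.Mz S φ (spsw ψ) with hM
  have hrz : ∀ y : Cfg r, rox Q.transpose 1 y = AX.rz Q.transpose y := AX.rox_one Q.transpose
  have hcont : Continuous fun y : Cfg r => rox Q.transpose 1 y := by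
    have h := (AX.rzL r Q.transpose).continuous
    refine h.congr fun y => ?_
    rw [hrz]
    rfl
  -- the regular set in the rotated frame
  set G : Set (Cfg r) := {y | (∑ i, DM M (rox Q.transpose 1 y) i * DM M (rox Q.transpose 1 y) i).det ≠ 0} with hG
  have hGo : IsOpen G := by
    have hd : Continuous fun y : Cfg r => (∑ i, DM M (rox Q.transpose 1 y) i * DM M (rox Q.transpose 1 y) i).det := by
      have h3 : Continuous fun y : Cfg r => ∑ i, DM M y i * DM M y i := by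
        unfold DM
        fun_prop
      exact (h3.comp hcont).matrix_det
    exact isOpen_ne_fun hd continuous_const
  have hG₀ : rox Q 1 η₀ ∈ G := by
    show (∑ i, DM M (rox Q.transpose 1 (rox Q 1 η₀)) i * DM M (rox Q.transpose 1 (rox Q 1 η₀)) i).det ≠ 0
    rw [AN.gb969_inv hQ, ← mb514_sq hQ (DM M η₀)]
    have h2 : ∀ i, ∑ j, Q i j • DM M η₀ j = DM M (AX.rz Q η₀) i := fun i => (AX.DM_rz M Q η₀ i).symm
    simp only [h2]
    refine mb514_det (DM M (AX.rz Q η₀)) ?_ ?_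
    · intro i
      have h3 := AX.Mz_anti S φ (spsw ψ)
      simp only [DM, Matrix.transpose_sum, Matrix.transpose_smul, hM, h3, smul_neg, Finset.sum_neg_distrib]
    · rw [hM, AX.DM_Dz, ← AX.rox_one]
      exact h8
  obtain ⟨δ₁, hδ₁, hball⟩ := Metric.nhds_basis_closedBall.mem_iff.1 (hGo.mem_nhds hG₀)
  have hOm : ∀ η ∈ Metric.closedBall (rox Q 1 η₀) δ₁,
      IsOm (S.rot Q hQ 1 h1).κ ((S.rot Q hQ 1 h1).Dz φ ψ η) (Om (rox Q.transpose 1 η)) := by
    intro η hη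
    have h2 : (∑ i, DM M (rox Q.transpose 1 η) i * DM M (rox Q.transpose 1 η) i).det ≠ 0 := hball hη
    have h3 := ((AX.covF0 S φ Q hQ h1 (DM M (rox Q.transpose 1 η)) (Om (rox Q.transpose 1 η))).2.2).1 (hB.om _ h2)
    have h4 : (fun i => ∑ j, Q i j • DM M (rox Q.transpose 1 η) j) = (S.rot Q hQ 1 h1).Dz φ ψ η := by
      rw [AX.rot_Dz]
      funext i
      rw [← AX.DM_rz, hrz, AX.rz_rz hQ, hM, AX.DM_Dz]
    rw [h4] at h3
    exact h3
  have hOc : ContinuousOn (fun η => Om (rox Q.transpose 1 η)) (Metric.closedBall (rox Q 1 η₀) δ₁) := by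
    refine continuousOn_pi.2 fun A => continuousOn_pi.2 fun B => ?_
    have h2 : ContinuousOn (fun η => Om η A B) {η | (∑ i, DM M η i * DM M η i).det ≠ 0} := (hB.om_smooth A B).continuousOn
    exact h2.comp hcont.continuousOn fun η hη => hball hη
  obtain ⟨δ, hδ, H⟩ := hP (S.rot Q hQ 1 h1) hF dh dm r ds φ ψ hφ' hc' (rox Q 1 η₀) hη' h8'
    (fun η => Om (rox Q.transpose 1 η)) δ₁ hδ₁ hOm hOc
  obtain ⟨hC1, hC2, hC3⟩ := hCov Q hQ
  refine ⟨δ, hδ, fun A hA hAs ε hε R u hu a ha e he => ?_⟩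
  have hcQ : Continuous fun y : Cfg r => rox Q 1 y := by
    have h := (AX.rzL r Q).continuous
    refine h.congr fun y => ?_
    rw [AX.rox_one]
    rfl
  have hA' : IsCompact (rox Q 1 '' A) := hA.image hcQ
  have hAs' : rox Q 1 '' A ⊆ Metric.closedBall (rox Q 1 η₀) δ := by
    rintro _ ⟨η, hη, rfl⟩
    have h2 := hAs hη
    rw [Metric.mem_closedBall, dist_eq_norm] at h2 ⊢
    have h3 := (AN.rtE Q hQ (1 : Matrix (Fin r) (Fin r) ℝ) (AN.gb969_one r)).map_sub η η₀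
    have h4 : rox Q 1 (η - η₀) = rox Q 1 η - rox Q 1 η₀ := h3
    rw [← h4, AN.rt_norm hQ (AN.gb969_one r)]
    exact h2
  have h5 := H (rox Q 1 '' A) hA' hAs' ε hε R (fun n => AJ.rotu Q 1 (u n)) (hC3 d S h1 R u hu)
    (fun η s => a (rox Q.transpose 1 η) (rox Q.transpose 1 s)) (hC2 r ds A a ha).1 e he
  have hres : ∀ (v : Cfg d → F) (p : Cfg dh × Wsp dm), (S.rot Q hQ 1 h1).res φ v p.1 p.2 = S.res φ v p.1 p.2 := by
    intro v p
    have h6 : (S.rot Q hQ 1 h1).Jd φ p.1 = S.Jd φ p.1 := by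
      unfold Setup.Jd Setup.Dy Setup.Dm
      simp only [AX.rot_f]
    unfold Setup.res
    rw [h6]
  filter_upwards [h5] with n hn
  rw [(hC2 r ds A a ha).2] at hn
  simp only [hres] at hn
  rw [hC1 d dh dm r ds φ ψ S.κ Om a (R n) (u n)]
  exact hn

end Vale.Agent.P353.Z.AM
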