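import Vale.Agent.P353.AN.L.Stmt
import Vale.Agent.P353.AN.P.Stmt
import Vale.Agent.P353.AN.JN.Stmt

/-! # P353, all `N`, block MB (helper714): mass bound of the profiles, uniform up to the collisions

OUTPUT: `AL.UBStmt S`. The constant does not depend on the compact set of regular points: tubes of a FIXED angular radius `ρ` over disjoint compact
pieces of the stratum are disjoint (`AP.InjStmt`), if their transversal radius `ε` is small enough (depending on the pieces).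

A prover delivers `theorem <name> … : XStmt …` in `Vale/Agent/P353/AN/MB/<File>.lean`, importing this file and landed files of `Z`, `Z/U`, `AN`, with other
statements only as hypotheses. -/

open MeasureTheory Filter Topology Matrix
open scoped ContDiff

namespace Vale.Agent.P353.Z.AM

variable {d dh dm r ds : ℕ} {F : Type} [NormedAddCommGroup F] [InnerProductSpace ℂ F]

/-- tube over the part `R A` of the stratum -/
def Tk (S : Setup d F) (φ : Spl dh dm d) (ψ : Spl r ds dh) (A : Set (Cfg r)) (R ε ρ : ℝ) : Set (Cfg d) :=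
  {x | ∃ a, ‖a‖ < ρ ∧ ∃ p ∈ AL.Nr ψ A dm R ε, x = AN.tub S φ a p}

/-- finite family of disjoint compact pieces of the stratum with frames -/
structure Fam (S : Setup d F) (φ : Spl dh dm d) (ψ : Spl r ds dh) (s t : ℝ) (k : ℕ) (K : Fin k → Set (Cfg r))
    (Q : Fin k → Matrix (Fin 9) (Fin 9) ℝ) : Prop where
  orth : ∀ l, Q l * (Q l).transpose = 1
  comp : ∀ l, IsCompact (K l)
  reg : ∀ l, K l ⊆ AL.Rg S φ ψ
  inv : ∀ l, ∀ η ∈ K l, (S.Dz φ ψ (rox (Q l) 1 η) 8).det ≠ 0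
  shl : ∀ l, K l ⊆ AD.shl r s t
  disj : ∀ l l', l ≠ l' → Disjoint (K l) (K l')

/-- **MB1** uniform injectivity along the stratum. PROOF. `z` = colour vectors supported in the indices `φ (inl (ψ (inl a)))`; it is commuting (`IsZ`,
`IsSub`). For `η ∈ Rg` the centraliser of the nine components of `emb φ (cmb ψ η 0) 0` is `{v | v = 0 on the indices φ (inr B)}`: on `h` the bracket vanishes
(`IsZ`, `IsSub`), on `m` it is `∓D_i(η)` with values in `m`, and `∑|D_ix|² = ⟨x, -∑D_i²x⟩` (antisymmetric matrices), `det ≠ 0`. So it equals `cen z`, and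
`exm φ a` is orthogonal to it. `ro (exp (adm a)) x` applies `mulVec` to every component. `Cless` = trivial centre in the sense of `AP.br`. -/
def InjUStmt (S : Setup d F) : Prop := AN.Cless S → ∀ (dh dm r ds : ℕ) (φ : Spl dh dm d) (ψ : Spl r ds dh), S.IsSub φ → AN.IsZ S φ ψ →
  ∃ ρ : ℝ, 0 < ρ ∧ ∀ (a a' : EuclideanSpace ℝ (Fin dm)) (η η' : Cfg r), ‖a‖ ≤ ρ → ‖a'‖ ≤ ρ → η ∈ AL.Rg S φ ψ → η' ∈ AL.Rg S φ ψ →
    AN.tub S φ a (AN.cmb ψ η 0, 0) = AN.tub S φ a' (AN.cmb ψ η' 0, 0) → a = a' ∧ η = η'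

def InjUOfStmt (S : Setup d F) : Prop := AP.InjStmt S → InjUStmt S

/-- **MB2a** the tube coordinates are injective over every piece, for a FIXED angular radius `ρ`, if the transversal radius is small. PROOF. Homogeneity (`tub a (R•p) = R•tub a p`):
`R = 1`. `ρ₀` = the radius of `InjUStmt`, so small that `j(a) ≠ 0` for `‖a‖ ≤ ρ₀` (`DetStmt`: `j` continuous, `j 0 = 1`). By contradiction and compactness: `ε_n → 0`,
`(a_n,p_n) ≠ (a_n',p_n')` with the same image, `p_n = (cmb ψ η_n s_n, w_n)`, `η_n` in the compact set `rox Q 1 '' K`; limits `(a,η,0,0)`, `(a',η',0,0)` are equal by `InjUStmt` (`Rg` is invariant under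
`rox Q 1`: `∑D_i²` does not change); at the limit point `fderiv (tz S φ)` is invertible (`DetStmt`: `|det| = Jd·|j| ≠ 0`, `Fam.inv`), so `tz S φ` is injective in a neighbourhood (inverse function theorem; it is `C^∞`).
`AN.tub`, `AN.tz`, `S.Jd`, `S.Dz` use the structure constants only: they are the same in the rotated frame. Compare `AN/A/Inj.lean`. -/
def SepAStmt (S : Setup d F) : Prop := InjUStmt S → AN.DetStmt S → AN.Cless S → ∀ (dh dm r ds : ℕ) (φ : Spl dh dm d) (ψ : Spl r ds dh),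
  S.IsSub φ → AN.IsZ S φ ψ → ∃ ρ₀ : ℝ, 0 < ρ₀ ∧ ∀ ρ : ℝ, 0 < ρ → ρ ≤ ρ₀ → ∀ (s t : ℝ) (k : ℕ) (K : Fin k → Set (Cfg r))
    (Q : Fin k → Matrix (Fin 9) (Fin 9) ℝ), Fam S φ ψ s t k K Q → ∃ ε₀ : ℝ, 0 < ε₀ ∧ ∀ ε : ℝ, 0 < ε → ε ≤ ε₀ → ∀ R : ℝ, 0 < R →
      ∀ l, Set.InjOn (fun q : EuclideanSpace ℝ (Fin dm) × (Cfg dh × Wsp dm) => AN.tub S φ q.1 q.2)
        (Metric.ball 0 ρ ×ˢ AL.Nr ψ (rox (Q l) 1 '' K l) dm R ε)

/-- **MB2b** the tubes over disjoint pieces are disjoint and lie in the shell. PROOF. `R = 1` by homogeneity. `Φ(a,η) = tub a (cmb ψ η 0, 0)` is continuous and injective on `closedBall 0 ρ × Rg` (`InjUStmt`,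
`ρ₀` = its radius). `rox Qᵀ 1` commutes with `ro` and maps `emb φ (cmb ψ (rox Q 1 η) 0) 0` to `emb φ (cmb ψ η 0) 0`, so the rotated tube of the piece `l` lies in the `√2ε`-neighbourhood of the compact set
`Φ(closedBall 0 ρ × K_l)` (`exp(ad a)` and `rox` are isometries: `DexpStmt` gives `exp·expᵀ = 1`; `‖emb (cmb ψ η s) w - emb (cmb ψ η 0) 0‖² = ‖s‖² + ‖w‖²`). These compact sets are disjoint, and lie in the open shell
(`‖Φ(a,η)‖ = ‖η‖`); disjoint compact sets have positive distance. -/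
def SepBStmt (S : Setup d F) : Prop := InjUStmt S → AN.DexpStmt S → AN.Cless S → ∀ (dh dm r ds : ℕ) (φ : Spl dh dm d) (ψ : Spl r ds dh),
  S.IsSub φ → AN.IsZ S φ ψ → ∃ ρ₀ : ℝ, 0 < ρ₀ ∧ ∀ ρ : ℝ, 0 < ρ → ρ ≤ ρ₀ → ∀ (s t : ℝ) (k : ℕ) (K : Fin k → Set (Cfg r))
    (Q : Fin k → Matrix (Fin 9) (Fin 9) ℝ), Fam S φ ψ s t k K Q → ∃ ε₀ : ℝ, 0 < ε₀ ∧ ∀ ε : ℝ, 0 < ε → ε ≤ ε₀ → ∀ R : ℝ, 0 < R →
      (∀ l l', l ≠ l' → Disjoint (rox (Q l).transpose 1 '' Tk S φ ψ (rox (Q l) 1 '' K l) R ε ρ)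
        (rox (Q l').transpose 1 '' Tk S φ ψ (rox (Q l') 1 '' K l') R ε ρ)) ∧
      ∀ l, rox (Q l).transpose 1 '' Tk S φ ψ (rox (Q l) 1 '' K l) R ε ρ ⊆ AD.shl d (s * R) (t * R)

/-- **MB3** volume of the tubes, with a constant that depends on `ρ` only. PROOF: as `AN/A/TubeF.lean`, `AN/GL/TubeJ.lean`: change of variables
`lintegral_image_eq_lintegral_abs_det_fderiv_mul` for `tz S φ` on the preimage (`CooStmt`) of `ball 0 ρ ×ˢ Nr`, `c = ∫_{ball 0 ρ}|j|` (`tbf_const`); measurability of the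
image: Lusin–Souslin (`MeasurableSet.image_of_continuousOn_injOn`). -/
def VolStmt (S : Setup d F) : Prop := AN.DetStmt S → AN.CooStmt → ∀ (dh dm r ds : ℕ) (φ : Spl dh dm d) (ψ : Spl r ds dh), S.IsSub φ →
  ∀ ρ : ℝ, 0 < ρ → ∃ c : ℝ, 0 < c ∧ ∀ (A : Set (Cfg r)) (R ε : ℝ), MeasurableSet A → 0 < R → 0 < ε →
    Set.InjOn (fun q : EuclideanSpace ℝ (Fin dm) × (Cfg dh × Wsp dm) => AN.tub S φ q.1 q.2) (Metric.ball 0 ρ ×ˢ AL.Nr ψ A dm R ε) →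
    MeasurableSet (Tk S φ ψ A R ε ρ) ∧ ∀ f : Cfg d → ENNReal, Measurable f →
      (∀ (a : Fin d → ℝ) x, f (ro (NormedSpace.exp (S.adm a)) x) = f x) →
      ∫⁻ x in Tk S φ ψ A R ε ρ, f x =
        ENNReal.ofReal c * ∫⁻ p in AL.Nr ψ A dm R ε, f (emb φ p.1 p.2) * ENNReal.ofReal (S.Jd φ p.1) ∂(volume.prod volume)

/-- **MB4** mass in disjoint tubes. PROOF. `u' = rotu (Q l) 1 u`, `f = ‖u'‖ₑ²` is invariant (`EqvStmt`, `u` gauge invariant; `rox Qᵀ 1` commutes with `ro`); `‖res u'‖² = Jd‖u'∘emb‖²`;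
MB3; `rox` preserves the measure (`RotStmt`); the rotated tubes are disjoint and lie in the shell (MB2). `C = 1/c`. -/
def MassStmt (S : Setup d F) : Prop := FiniteDimensional ℂ F → AN.Cless S → ∀ (dh dm r ds : ℕ) (φ : Spl dh dm d) (ψ : Spl r ds dh),
  S.IsSub φ → AN.IsZ S φ ψ → ∃ C : ℝ, 0 < C ∧ ∀ (s t : ℝ) (k : ℕ) (K : Fin k → Set (Cfg r)) (Q : Fin k → Matrix (Fin 9) (Fin 9) ℝ),
    Fam S φ ψ s t k K Q → ∃ ε₀ : ℝ, 0 < ε₀ ∧ ∀ ε : ℝ, 0 < ε → ε ≤ ε₀ → ∀ R : ℝ, 0 < R → ∀ u : Cfg d → F, AD.GInv S u →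
      ∑ l, ∫ p in AL.Nr ψ (rox (Q l) 1 '' K l) dm R ε, ‖S.res φ (AJ.rotu (Q l) 1 u) p.1 p.2‖ ^ 2 ∂(volume.prod volume) ≤
        C * AD.mas u (AD.shl d (s * R) (t * R))

def MassOfStmt (S : Setup d F) : Prop := InjUStmt S → SepAStmt S → SepBStmt S → VolStmt S → AN.DexpStmt S → AN.DetStmt S → AN.CooStmt →
  AN.EqvStmt S → AN.RotStmt S → MassStmt S

/-- **MB5a** covariance of the functionals under rotations of the vector index. PROOF: substitution `x ↦ rox Q 1 x` (measure preserving), see `AN/GL/Glob.lean` (`gb969_hz`, `gb969_hs`, `gb969_pm`,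
`gb969_qX`, `gb969_GInv`, `gb969_mas`). -/
def CovZStmt (F : Type) [NormedAddCommGroup F] [InnerProductSpace ℂ F] : Prop := ∀ (Q : Matrix (Fin 9) (Fin 9) ℝ)
  (hQ : Q * Q.transpose = 1),
  (∀ (d dh dm r ds : ℕ) (φ : Spl dh dm d) (ψ : Spl r ds dh) (κ : ℝ) (Om : Cfg r → Matrix (Fin dm) (Fin dm) ℝ) (a : Cfg r → Cfg ds → F)
    (R : ℝ) (u : Cfg d → F), AL.ZZ κ φ ψ Om a R u = AL.ZZ κ φ ψ (fun η => Om (rox Q.transpose 1 η))
      (fun η s => a (rox Q.transpose 1 η) (rox Q.transpose 1 s)) R (AJ.rotu Q 1 u)) ∧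
  (∀ (r ds : ℕ) (A : Set (Cfg r)) (a : Cfg r → Cfg ds → F), AL.Sec2 A a →
    AL.Sec2 (rox Q 1 '' A) (fun η s => a (rox Q.transpose 1 η) (rox Q.transpose 1 s)) ∧
    AL.n2 (fun η s => a (rox Q.transpose 1 η) (rox Q.transpose 1 s)) = AL.n2 a) ∧
  ∀ (d : ℕ) (S : Setup d F) (h1 : (1 : Matrix (Fin d) (Fin d) ℝ) * (1 : Matrix (Fin d) (Fin d) ℝ).transpose = 1)
    (R : ℕ → ℝ) (u : ℕ → Cfg d → F), AL.SqM S R u → AL.SqM (S.rot Q hQ 1 h1) R (fun n => AJ.rotu Q 1 (u n))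

/-- **MB5b** one piece in a standard frame. PROOF. `Std S φ (cmb ψ η₀ 0)`. `GluStmt` at `η₀` with a slice radius `ε₁ ≤` the radius of `NormStmt` gives `δ₀`; `δ ≤ δ₀`, also so small that `closedBall η₀ δ ⊆ shl s' t'` (`η₀ ≠ 0`) and
`Frz (Dz η)`, `IsOm`, `Om` continuous on the `2δ`-ball. Replace `a` by a strongly measurable representative supported over `A` (`Zb` changes on a null set only), `u` by `u'` of `RadStmt` (`ZZ` sees the shell only: `SupZStmt`;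
`‖u'‖ ≤ ‖u‖` pointwise for the right side). `chi (R n)` is admissible for large `n` (put `0` for the others). So `ZZ = ∫_{Nb}⟨Ts0 (vG a), res u'⟩ + o(1)`; `Ts0 (vG a) ≠ 0` only for `R⁻¹ hz ∈ A`; on `Nr … ε`: Cauchy–Schwarz with
`‖Ts0 (vG a)‖ = √(n2 a)` (`TailStmt`, `VGStmt`); on the rest of `Nb`: `TailStmt` (tail of `Ts0 (vG a)` on `{‖hs‖ ≥ εR or ‖w‖ ≥ εR}` tends to `0`) and `∫_{Nb}‖res u'‖² ≤ C` (`NormStmt`). Compare L-GluA (helper926). -/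
def Piece1Stmt (S : Setup d F) : Prop := FiniteDimensional ℂ F → ∀ (dh dm r ds : ℕ) (φ : Spl dh dm d) (ψ : Spl r ds dh), S.IsSub φ →
  AN.IsZ S φ ψ → ∀ η₀ : Cfg r, η₀ ≠ 0 → (S.Dz φ ψ η₀ 8).det ≠ 0 → ∀ (Om : Cfg r → Matrix (Fin dm) (Fin dm) ℝ) (δ₁ : ℝ), 0 < δ₁ →
  (∀ η ∈ Metric.closedBall η₀ δ₁, IsOm S.κ (S.Dz φ ψ η) (Om η)) → ContinuousOn Om (Metric.closedBall η₀ δ₁) →
  ∃ δ : ℝ, 0 < δ ∧ ∀ A, IsCompact A → A ⊆ Metric.closedBall η₀ δ →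
  ∀ ε : ℝ, 0 < ε → ∀ (R : ℕ → ℝ) (u : ℕ → Cfg d → F), AL.SqM S R u → ∀ a, AL.Sec2 A a → ∀ e : ℝ, 0 < e → ∀ᶠ n in atTop,
    ‖AL.ZZ S.κ φ ψ Om a (R n) (u n)‖ ≤ Real.sqrt (AL.n2 a) * Real.sqrt (∫ p in AL.Nr ψ A dm (R n) ε,
      ‖S.res φ (u n) p.1 p.2‖ ^ 2 ∂(volume.prod volume)) + e

def Piece1OfStmt (S : Setup d F) : Prop := AN.GluStmt S → AN.NormStmt S → AN.MeaStmt S → AN.GauStmt → AlgStmt → AL.TailStmt S → AL.VGStmt S →
  AL.RadStmt S → AL.SupZStmt F → Piece1Stmt S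

/-- **MB5** one piece. PROOF. `S' = S.rot Q hQ 1 h1` (structure constants, `κ`, `Jd`, `Dz`, `res` unchanged: `AX.rot_f`, `AX.rot_Dz`), MB5b for `S'` at `rox Q 1 η₀` with `Om' = Om ∘ rox Qᵀ 1`
(`IsOm` is frame independent: `∑D_i²` does not change, `AX.DM_rz`, `covF0`; `Bun.om`, `Bun.om_smooth`: the set `{det ∑D_i² ≠ 0}` is open), and MB5a. -/
def PieceStmt (S : Setup d F) : Prop := FiniteDimensional ℂ F → ∀ (dh dm r ds : ℕ) (φ : Spl dh dm d) (ψ : Spl r ds dh)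
  (z₀ : Cfg r), AD.Std2 S φ (spsw ψ) z₀ → ∀ (L : Finset (Fin r → ℝ)) (Om : Cfg r → Matrix (Fin dm) (Fin dm) ℝ) (K : Submodule ℂ F)
  (U : Cfg r → F →L[ℂ] F), AX.Bun S φ (AX.Mz S φ (spsw ψ)) L Om K U → ∀ η₀ : Cfg r, η₀ ≠ 0 → ∀ Q : Matrix (Fin 9) (Fin 9) ℝ,
  Q * Q.transpose = 1 → (S.Dz φ ψ (rox Q 1 η₀) 8).det ≠ 0 → ∃ δ : ℝ, 0 < δ ∧ ∀ A, IsCompact A → A ⊆ Metric.closedBall η₀ δ →
  ∀ ε : ℝ, 0 < ε → ∀ (R : ℕ → ℝ) (u : ℕ → Cfg d → F), AL.SqM S R u → ∀ a, AL.Sec2 A a → ∀ e : ℝ, 0 < e → ∀ᶠ n in atTop,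
    ‖AL.ZZ S.κ φ ψ Om a (R n) (u n)‖ ≤ Real.sqrt (AL.n2 a) * Real.sqrt (∫ p in AL.Nr ψ (rox Q 1 '' A) dm (R n) ε,
      ‖S.res φ (AJ.rotu Q 1 (u n)) p.1 p.2‖ ^ 2 ∂(volume.prod volume)) + e

def PieceOfStmt (S : Setup d F) : Prop := CovZStmt F → (∀ S' : Setup d F, Piece1Stmt S') → PieceStmt S

/-- **MB6** crude bound over one compact set (the constant depends on `A` and on the sequence; used for a small remainder). PROOF. `u'` of `RadStmt`, `SupZStmt`. `GluKStmt` with `b = chi·bG a` (large `n`: `√R ≤ δR`,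
`R ≤ δR√R`). `‖b‖_{wM} ≤ C_A√(n2 a)`: `∫(1+‖X‖²)^{dm+1}(Nf(Om η)e^{-½qX})²dX` is bounded for `η ∈ A` (`MomStmt` locally, with the rotated matrices `D(η) = Dz (rox Q 1 η)` at points of `A`, `Frz` near the point; finite cover). -/
def RestStmt (S : Setup d F) : Prop := FiniteDimensional ℂ F → ∀ (dh dm r ds : ℕ) (φ : Spl dh dm d) (ψ : Spl r ds dh)
  (z₀ : Cfg r), AD.Std2 S φ (spsw ψ) z₀ → ∀ (L : Finset (Fin r → ℝ)) (Om : Cfg r → Matrix (Fin dm) (Fin dm) ℝ) (K : Submodule ℂ F)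
  (U : Cfg r → F →L[ℂ] F), AX.Bun S φ (AX.Mz S φ (spsw ψ)) L Om K U → ∀ s t : ℝ, 0 < s → s < t → ∀ A, IsCompact A →
  A ⊆ AD.shl r s t → A ⊆ AL.Rg S φ ψ → ∀ (R : ℕ → ℝ) (u : ℕ → Cfg d → F), AL.SqM S R u → ∃ C : ℝ, 0 ≤ C ∧ ∀ a, AL.Sec2 A a →
    ∀ᶠ n in atTop, ‖AL.ZZ S.κ φ ψ Om a (R n) (u n)‖ ≤ C * Real.sqrt (AL.n2 a)

def RestOfStmt (S : Setup d F) : Prop := AN.GluKStmt S → AN.MomStmt → AL.RadStmt S → AL.SupZStmt F → AJ.RegStmt S → RestStmt S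

/-- **MB7** disjoint compact pieces carrying almost all of the norm. PROOF. Disjoint Borel pieces `A_l = A ∩ closedBall l \ ⋃_{k<l} closedBall k`; the measure `μ(B) = ∫_{B × Cfg ds}‖a‖²` on `Cfg r` is finite, hence
inner regular: compact `K_l ⊆ A_l` with `μ(A_l \ K_l) ≤ e/k`. -/
def InRegStmt (F : Type) [NormedAddCommGroup F] [InnerProductSpace ℂ F] : Prop := ∀ (r ds : ℕ) (A : Set (Cfg r)), IsCompact A →
  ∀ (k : ℕ) (c : Fin k → Cfg r) (δ : Fin k → ℝ), A ⊆ (⋃ l, Metric.closedBall (c l) (δ l)) → ∀ a : Cfg r → Cfg ds → F, AL.Sec2 A a →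
  ∀ e : ℝ, 0 < e → ∃ K : Fin k → Set (Cfg r), (∀ l, IsCompact (K l)) ∧ (∀ l, K l ⊆ A ∩ Metric.closedBall (c l) (δ l)) ∧
    (∀ l l', l ≠ l' → Disjoint (K l) (K l')) ∧ ∃ (b : Fin k → Cfg r → Cfg ds → F) (b' : Cfg r → Cfg ds → F),
      (∀ l, AL.Sec2 (K l) (b l)) ∧ AL.Sec2 A b' ∧ (∀ η s, a η s = (∑ l, b l η s) + b' η s) ∧
      (∑ l, AL.n2 (b l)) ≤ AL.n2 a ∧ AL.n2 b' ≤ e

/-- **MB8** assembly. PROOF. `C = √C₄` (MB4). Given `A`, sequence, `a`, `e`. For `η₀ ∈ A`: frame `Q` (`RegStmt`: `det D_8(rox Q 1 η₀) ≠ 0`), `δ(η₀)` of MB5, also so small that `det D_8(rox Q 1 η) ≠ 0` on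
`closedBall η₀ δ`. Finite subcover `(c_l, δ_l, Q_l)`; `C₆` of MB6; MB7 with `C₆²e' ≤ (e/3)²`: `K_l`, `b_l`, `b'`. `Fam S φ ψ s t k K Q`; `ε = ε₀` of MB4. `ZZ a = ∑ZZ b_l + ZZ b'` (`LinStmt`, all in `Sec2 A`);
`|ZZ b'| ≤ e/3`; `|ZZ b_l| ≤ √(n2 b_l)·√m_l + e/(3k+3)` (MB5), `∑√(n2 b_l)√m_l ≤ √(∑n2 b_l)·√(∑m_l) ≤ √(n2 a)·√(C₄ mas)`. `IsSub`, `IsZ` from `Std2`. -/
def UBOfStmt (S : Setup d F) : Prop := MassStmt S → PieceStmt S → RestStmt S → InRegStmt F → AL.LinStmt S → AJ.RegStmt S → AL.UBStmt S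

end Vale.Agent.P353.Z.AM
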